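import Mathlib

/-!
P254, almost unconditional bodies: linear algebra.
-/

open Matrix

namespace Vale.Agent.P254.AU

/-- `1 ≤ M_jj (M⁻¹)_jj` -/
lemma one_le_diag_inv {n : ℕ} {M : Matrix (Fin n) (Fin n) ℝ} (hM : M.PosDef) (j : Fin n) :
    1 ≤ M j j * M⁻¹ j j := by
  have hjj : 0 < M j j := hM.diag_pos
  have hu : IsUnit M.det := hM.det_pos.ne'.isUnit
  set e : Fin n → ℝ := Pi.single j 1 with he
  set y : Fin n → ℝ := M⁻¹ *ᵥ e with hy
  have hMy : M *ᵥ y = e := by
    rw [hy, mulVec_mulVec, mul_nonsing_inv _ hu, one_mulVec]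
  have hsymm : Mᵀ = M := by
    have := hM.isHermitian
    rwa [IsHermitian, conjTranspose_eq_transpose_of_trivial] at this
  have h := hM.posSemidef.dotProduct_mulVec_nonneg (e - M j j • y)
  rw [star_trivial, mulVec_sub, mulVec_smul, hMy, sub_dotProduct, dotProduct_sub,
    dotProduct_sub, smul_dotProduct, dotProduct_smul, smul_dotProduct, dotProduct_smul] at h
  have h1 : e ⬝ᵥ M *ᵥ e = M j j := by
    simp [he]
  have h2 : e ⬝ᵥ e = 1 := by simp [he]
  have h3 : y ⬝ᵥ M *ᵥ e = 1 := by
    rw [dotProduct_mulVec, ← mulVec_transpose, hsymm, hMy, h2]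
  have h4 : y ⬝ᵥ e = M⁻¹ j j := by
    rw [hy]
    simp [he]
  rw [h1, h2, h3, h4] at h
  simp only [smul_eq_mul, mul_one] at h
  have h5 : 0 ≤ M j j * (M j j * M⁻¹ j j - 1) := by linarith
  have h6 := nonneg_of_mul_nonneg_right h5 hjj
  linarith

/-- `det M ≤ M_jj det (minor)` -/
lemma det_le_diag_mul {m : ℕ} {M : Matrix (Fin (m + 1)) (Fin (m + 1)) ℝ} (hM : M.PosDef)
    (j : Fin (m + 1)) : M.det ≤ M j j * (M.submatrix j.succAbove j.succAbove).det := by
  have hd := hM.det_pos
  have h := one_le_diag_inv hM j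
  have h1 : M⁻¹ j j = (M.det)⁻¹ * (M.submatrix j.succAbove j.succAbove).det := by
    rw [inv_def, Matrix.smul_apply, adjugate_fin_succ_eq_det_submatrix, Ring.inverse_eq_inv', smul_eq_mul]
    congr 1
    rw [Even.neg_one_pow ⟨(j : ℕ), rfl⟩, one_mul]
  rw [h1] at h
  have h2 : M.det * 1 ≤ M.det * (M j j * ((M.det)⁻¹ * (M.submatrix j.succAbove j.succAbove).det)) :=
    mul_le_mul_of_nonneg_left h hd.le
  have h3 : M.det * (M j j * ((M.det)⁻¹ * (M.submatrix j.succAbove j.succAbove).det)) =
      M j j * (M.submatrix j.succAbove j.succAbove).det := by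
    field_simp
  linarith

/-- comparison of the determinants of two matrices which agree off the row and column `j`. -/
theorem det_compare {n : ℕ} {M M' : Matrix (Fin n) (Fin n) ℝ} (hM : M.PosDef) (j : Fin n)
    (h1 : ∀ i k, i ≠ j → k ≠ j → M i k = M' i k) (h2 : ∀ k, k ≠ j → M' j k = 0) {Γ : ℝ}
    (h3 : M j j ≤ Γ * M' j j) : M.det ≤ Γ * M'.det := by
  cases n with
  | zero => exact j.elim0
  | succ m =>
    have hsub : M.submatrix j.succAbove j.succAbove = M'.submatrix j.succAbove j.succAbove := by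
      ext i k
      exact h1 _ _ (Fin.succAbove_ne j i) (Fin.succAbove_ne j k)
    have hdet' : M'.det = M' j j * (M'.submatrix j.succAbove j.succAbove).det := by
      rw [det_succ_row M' j, Finset.sum_eq_single j]
      · rw [Even.neg_one_pow ⟨(j : ℕ), rfl⟩, one_mul]
      · intro k _ hk
        rw [h2 k hk]
        ring
      · intro h
        exact absurd (Finset.mem_univ j) h
    have h4 := det_le_diag_mul hM j
    have hpd : 0 < (M.submatrix j.succAbove j.succAbove).det := by
      have := hM.submatrix (Fin.succAbove_right_injective (p := j))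
      exact this.det_pos
    rw [hdet', ← hsub]
    calc M.det ≤ M j j * (M.submatrix j.succAbove j.succAbove).det := h4
      _ ≤ Γ * M' j j * (M.submatrix j.succAbove j.succAbove).det :=
        mul_le_mul_of_nonneg_right h3 hpd.le
      _ = _ := by ring

end Vale.Agent.P254.AU
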