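import Vale.Agent.P254.AU.Step
import Vale.Agent.P254.Unc.Top

/-!
P254, almost unconditional bodies: the bound of the isotropic constant of the bodies which are
symmetric in all but `q` coordinates.
-/

open MeasureTheory Set Matrix

namespace Vale.Agent.P254.AU

open Vale.Agent.P254.Unc

variable {n : ℕ}

lemma uncond_of_flip {K : Set (Fin n → ℝ)}
    (h : ∀ i, ∀ x ∈ K, Function.update x i (-x i) ∈ K) : Uncond K := by
  classical
  intro x hx y hy
  have key : ∀ S : Finset (Fin n), (fun i => if i ∈ S then y i else x i) ∈ K := by
    intro S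
    induction S using Finset.induction_on with
    | empty => simpa using hx
    | insert j S hj ih =>
      rcases abs_eq_abs.1 (hy j) with h1 | h1
      · convert ih using 1
        funext i
        by_cases hi : i = j
        · subst hi; simp [hj, h1]
        · simp [hi]
      · convert h j _ ih using 1
        funext i
        by_cases hi : i = j
        · subst hi; simp [hj, h1]
        · simp [hi]
  simpa using key Finset.univ

theorem au_flip (hUNC : UNCR n) (T : Finset (Fin n)) : ∀ {K : Set (Fin n → ℝ)},
    IsConvexBody K → (∀ i, i ∉ T → ∀ x ∈ K, Function.update x i (-x i) ∈ K) →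
    (covMatrix K).det / (volume K).toReal ^ 2 ≤
      (((n : ℝ) + 1) * (n + 2) / 2) ^ T.card * (((n : ℝ) + 1) / (8 * ((n : ℝ) + 2))) ^ n := by
  induction T using Finset.induction_on with
  | empty =>
    intro K hK h
    have := unc_body hUNC hK (uncond_of_flip fun i => h i (by simp))
    simpa using this
  | insert j T hj ih =>
    intro K hK h
    obtain ⟨hS, hvol⟩ := isConvexBody_St hK j
    have h1 := ih hS (by
      intro i hi
      by_cases hij : i = j
      · subst hij
        intro x hx
        exact St_symm i hx (by rw [abs_neg])
      · exact St_symm' j hij (h i (by simp [hij, hi])))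
    have h2 := det_cov_le_St hK j
    have hV := volume_pos_of_body hK
    rw [hvol] at h1
    rw [Finset.card_insert_of_notMem hj, pow_succ]
    have h3 : (covMatrix K).det / (volume K).toReal ^ 2 ≤
        (((n : ℝ) + 1) * (n + 2) / 2) * ((covMatrix (St j K)).det / (volume K).toReal ^ 2) := by
      rw [← mul_div_assoc]
      exact div_le_div_of_nonneg_right h2 (by positivity)
    refine h3.trans ?_
    have h4 := mul_le_mul_of_nonneg_left h1
      (show (0 : ℝ) ≤ ((n : ℝ) + 1) * (n + 2) / 2 by positivity)
    refine h4.trans (le_of_eq ?_)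
    ring

/-- **Almost unconditional bodies.** If the convex body `K` is symmetric with respect to the
coordinate hyperplanes of the coordinates in `S`, then
`det Cov / |K| ^ 2 ≤ ((n + 1)(n + 2) / 2) ^ (n - |S|) ((n + 1) / (8 (n + 2))) ^ n`. -/
theorem au_body {K : Set (Fin n → ℝ)} (hK : IsConvexBody K) (S : Finset (Fin n))
    (hsym : ∀ x ∈ K, ∀ y : Fin n → ℝ, (∀ i ∈ S, |y i| = |x i|) → (∀ i, i ∉ S → y i = x i) → y ∈ K) :
    (covMatrix K).det / (volume K).toReal ^ 2 ≤
      (((n : ℝ) + 1) * (n + 2) / 2) ^ (n - S.card) *
        (((n : ℝ) + 1) / (8 * ((n : ℝ) + 2))) ^ n := by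
  classical
  have h := au_flip (uncr_all n) Sᶜ hK (by
    intro i hi x hx
    rw [Finset.mem_compl, not_not] at hi
    refine hsym x hx _ (fun k hk => ?_) (fun k hk => ?_)
    · by_cases hki : k = i
      · subst hki; simp
      · rw [Function.update_of_ne hki]
    · have hki : k ≠ i := by
        rintro rfl
        exact hk hi
      rw [Function.update_of_ne hki])
  rwa [Finset.card_compl, Fintype.card_fin] at h

end Vale.Agent.P254.AU
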