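import Vale.Agent.P254.AU.Body

/-!
P254: the bodies which become (affine images of) unconditional bodies after `q` Steiner
symmetrizations.
-/

open MeasureTheory Set Matrix

namespace Vale.Agent.P254.AU

open Vale.Agent.P254.Unc

/-- `Alm q K`: the convex body `K` becomes an affine image of an unconditional body by `q` Steiner
symmetrizations (in arbitrary directions). -/
inductive Alm {n : ℕ} : ℕ → Set (Fin n → ℝ) → Prop
  | unc {K : Set (Fin n → ℝ)} (hK : IsConvexBody K) (hu : Uncond K) : Alm 0 K
  | aff {q : ℕ} {K : Set (Fin n → ℝ)} (A : Matrix (Fin n) (Fin n) ℝ) (b : Fin n → ℝ)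
      (hA : A.det ≠ 0) (hK : Alm q K) : Alm q ((fun x => A *ᵥ x + b) '' K)
  | ste {q : ℕ} {K : Set (Fin n → ℝ)} (hK : IsConvexBody K) (j : Fin n) (h : Alm q (St j K)) :
      Alm (q + 1) K

theorem Alm.body {n q : ℕ} {K : Set (Fin n → ℝ)} (h : Alm q K) : IsConvexBody K := by
  induction h with
  | unc hK _ => exact hK
  | aff A b hA _ ih => exact isConvexBody_aff_image hA b ih
  | ste hK _ _ _ => exact hK

theorem Alm.bound {n q : ℕ} {K : Set (Fin n → ℝ)} (h : Alm q K) :
    (covMatrix K).det / (volume K).toReal ^ 2 ≤
      (((n : ℝ) + 1) * (n + 2) / 2) ^ q * (((n : ℝ) + 1) / (8 * ((n : ℝ) + 2))) ^ n := by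
  induction h with
  | unc hK hu =>
    have := unc_body (uncr_all n) hK hu
    simpa using this
  | @aff q K A b hA hK ih =>
    have hb := hK.body
    have hV := volume_pos_of_body hb
    have e : (covMatrix ((fun x => A *ᵥ x + b) '' K)).det /
        (volume ((fun x => A *ᵥ x + b) '' K)).toReal ^ 2 =
        (covMatrix K).det / (volume K).toReal ^ 2 := by
      have h1 := cov_aff_image hA b hb.2.1 hV.ne'
      have h2 := volume_aff_image hA b hb.2.1.measurableSet
      have h0 : (fun x => A *ᵥ x + b) = Vale.Agent.P254.aff A b := rfl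
      rw [h0, h1, h2, det_mul, det_mul, det_transpose, mul_pow, sq_abs]
      field_simp
    rw [e]
    exact ih
  | @ste q K hK j _ ih =>
    obtain ⟨_, hvol⟩ := isConvexBody_St hK j
    have h2 := det_cov_le_St hK j
    have hV := volume_pos_of_body hK
    rw [hvol] at ih
    rw [pow_succ]
    have h3 : (covMatrix K).det / (volume K).toReal ^ 2 ≤
        (((n : ℝ) + 1) * (n + 2) / 2) * ((covMatrix (St j K)).det / (volume K).toReal ^ 2) := by
      rw [← mul_div_assoc]
      exact div_le_div_of_nonneg_right h2 (by positivity)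
    refine h3.trans ?_
    have h4 := mul_le_mul_of_nonneg_left ih
      (show (0 : ℝ) ≤ ((n : ℝ) + 1) * (n + 2) / 2 by positivity)
    refine h4.trans (le_of_eq ?_)
    ring

theorem alm_of_flip {n : ℕ} (T : Finset (Fin n)) : ∀ {K : Set (Fin n → ℝ)},
    IsConvexBody K → (∀ i, i ∉ T → ∀ x ∈ K, Function.update x i (-x i) ∈ K) → Alm T.card K := by
  induction T using Finset.induction_on with
  | empty =>
    intro K hK h
    exact Alm.unc hK (uncond_of_flip fun i => h i (by simp))
  | insert j T hj ih =>
    intro K hK h
    rw [Finset.card_insert_of_notMem hj]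
    refine Alm.ste hK j (ih (isConvexBody_St hK j).1 ?_)
    intro i hi
    by_cases hij : i = j
    · subst hij
      intro x hx
      exact St_symm i hx (by rw [abs_neg])
    · exact St_symm' j hij (h i (by simp [hij, hi]))

/-- The bodies which are symmetric with respect to the coordinate hyperplanes of the coordinates in
`S` become unconditional after `n - |S|` Steiner symmetrizations. -/
theorem alm_of_sym {n : ℕ} {K : Set (Fin n → ℝ)} (hK : IsConvexBody K) (S : Finset (Fin n))
    (hsym : ∀ x ∈ K, ∀ y : Fin n → ℝ, (∀ i ∈ S, |y i| = |x i|) → (∀ i, i ∉ S → y i = x i) → y ∈ K) :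
    Alm (n - S.card) K := by
  classical
  have h := alm_of_flip Sᶜ hK (by
    intro i hi x hx
    rw [Finset.mem_compl, not_not] at hi
    refine hsym x hx _ (fun k hk => ?_) (fun k hk => ?_)
    · by_cases hki : k = i
      · subst hki; simp
      · rw [Function.update_of_ne hki]
    · have hki : k ≠ i := by
        rintro rfl
        exact hk hi
      rw [Function.update_of_ne hki])
  rwa [Finset.card_compl, Fintype.card_fin] at h

end Vale.Agent.P254.AU
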