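import Vale.Agent.P254.AU.St

/-!
P254, almost unconditional bodies: integrals over bodies with the same fibre lengths.
-/

open MeasureTheory Set

namespace Vale.Agent.P254.AU

lemma upd_ins {m : ℕ} (j : Fin (m + 1)) (y : Fin m → ℝ) (s t : ℝ) :
    Function.update (j.insertNth (α := fun _ => ℝ) s y) j t = j.insertNth (α := fun _ => ℝ) t y := by
  funext i
  refine j.succAboveCases ?_ (fun k => ?_) i
  · simp
  · rw [Function.update_of_ne (Fin.succAbove_ne j k)]
    simp

lemma int_fib {m : ℕ} {K : Set (Fin (m + 1) → ℝ)} (hK : IsCompact K) (j : Fin (m + 1))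
    {g : (Fin (m + 1) → ℝ) → ℝ} (hg : Continuous g)
    (hgj : ∀ x t, g (Function.update x j t) = g x) :
    ∫ x in K, g x = ∫ y : Fin m → ℝ,
      (volume {t : ℝ | Function.update (j.insertNth (α := fun _ => ℝ) 0 y) j t ∈ K}).toReal *
        g (j.insertNth (α := fun _ => ℝ) 0 y) := by
  have hint : Integrable (K.indicator g) volume :=
    (hg.continuousOn.integrableOn_compact hK).integrable_indicator hK.measurableSet
  have hmp := (volume_preserving_piFinSuccAbove (fun _ : Fin (m + 1) => ℝ) j).symm
  rw [← integral_indicator hK.measurableSet]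
  have h1 := hmp.integral_comp' (g := K.indicator g)
  rw [← h1]
  have hint2 : Integrable (fun p : ℝ × (Fin m → ℝ) =>
      K.indicator g ((MeasurableEquiv.piFinSuccAbove (fun _ : Fin (m + 1) => ℝ) j).symm p))
      (volume.prod volume) := (hmp.integrable_comp_emb (MeasurableEquiv.measurableEmbedding _)).2 hint
  change ∫ p : ℝ × (Fin m → ℝ),
      K.indicator g ((MeasurableEquiv.piFinSuccAbove (fun _ : Fin (m + 1) => ℝ) j).symm p)
      ∂(volume.prod volume) = _
  rw [integral_prod_symm _ hint2]
  refine integral_congr_ae (Filter.Eventually.of_forall fun y => ?_)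
  simp only
  have e : ∀ t : ℝ, K.indicator g
      ((MeasurableEquiv.piFinSuccAbove (fun _ : Fin (m + 1) => ℝ) j).symm (t, y)) =
      {t : ℝ | Function.update (j.insertNth (α := fun _ => ℝ) 0 y) j t ∈ K}.indicator
        (fun _ => g (j.insertNth (α := fun _ => ℝ) 0 y)) t := by
    intro t
    have e1 : (MeasurableEquiv.piFinSuccAbove (fun _ : Fin (m + 1) => ℝ) j).symm (t, y) =
        Function.update (j.insertNth (α := fun _ => ℝ) 0 y) j t := by
      rw [upd_ins]
      rfl
    rw [e1]
    by_cases h : Function.update (j.insertNth (α := fun _ => ℝ) 0 y) j t ∈ K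
    · rw [indicator_of_mem h, indicator_of_mem (show t ∈ {t : ℝ | Function.update
        (j.insertNth (α := fun _ => ℝ) 0 y) j t ∈ K} from h), hgj]
    · rw [indicator_of_notMem h, indicator_of_notMem (show t ∉ {t : ℝ | Function.update
        (j.insertNth (α := fun _ => ℝ) 0 y) j t ∈ K} from h)]
  simp_rw [e]
  have hcont : Continuous fun t : ℝ =>
      Function.update (j.insertNth (α := fun _ => ℝ) 0 y) j t :=
    continuous_const.update j continuous_id
  have hm : MeasurableSet {t : ℝ | Function.update (j.insertNth (α := fun _ => ℝ) 0 y) j t ∈ K} :=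
    (hK.isClosed.preimage hcont).measurableSet
  rw [integral_indicator hm, setIntegral_const]
  rfl

/-- Integrals of functions which do not depend on `x_j` only depend on the fibre lengths. -/
theorem int_eq_of_fib {n : ℕ} {K K' : Set (Fin n → ℝ)} (hK : IsCompact K) (hK' : IsCompact K')
    (j : Fin n)
    (hf : ∀ x, volume {t : ℝ | Function.update x j t ∈ K'} =
      volume {t : ℝ | Function.update x j t ∈ K})
    {g : (Fin n → ℝ) → ℝ} (hg : Continuous g) (hgj : ∀ x t, g (Function.update x j t) = g x) :
    ∫ x in K', g x = ∫ x in K, g x := by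
  cases n with
  | zero => exact j.elim0
  | succ m =>
    rw [int_fib hK j hg hgj, int_fib hK' j hg hgj]
    simp_rw [hf]

theorem vol_eq_of_fib {n : ℕ} {K K' : Set (Fin n → ℝ)} (hK : IsCompact K) (hK' : IsCompact K')
    (j : Fin n)
    (hf : ∀ x, volume {t : ℝ | Function.update x j t ∈ K'} =
      volume {t : ℝ | Function.update x j t ∈ K}) :
    (volume K').toReal = (volume K).toReal := by
  have := int_eq_of_fib hK hK' j hf (g := fun _ => (1 : ℝ)) continuous_const (fun _ _ => rfl)
  simpa [Measure.real] using this

end Vale.Agent.P254.AU
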