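import Vale.Agent.P254.Unc.Ber

/-!
P254, almost unconditional bodies: lower bound of the second moment of a coordinate by its maximum.
-/

open MeasureTheory Set
open scoped Pointwise

namespace Vale.Agent.P254.AU

open Vale.Agent.P254.Unc

theorem sq_lower {n : ℕ} {L : Set (Fin n → ℝ)} (hc : Convex ℝ L) (hL : IsCompact L) (k : Fin n)
    (h0 : ∀ x ∈ L, 0 ≤ x k) {z : Fin n → ℝ} (hz : z ∈ L) {w : ℝ} (hw : 0 < w) (hzw : z k = w) :
    2 * ((volume L).toReal * w ^ 2 / ((n + 1) * (n + 2))) ≤ ∫ x in L, x k ^ 2 := by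
  have hn : 0 < n := Fin.pos k
  have hn0 : n ≠ 0 := hn.ne'
  set μ : Measure (Fin n → ℝ) := volume.restrict L with hμ
  have : IsFiniteMeasure μ := ⟨by rw [hμ, Measure.restrict_apply_univ]; exact hL.measure_lt_top⟩
  have hf : Measurable fun x : Fin n → ℝ => x k := measurable_pi_apply k
  have h0' : ∀ᵐ x ∂μ, 0 ≤ x k := by
    filter_upwards [ae_restrict_mem hL.measurableSet] with x hx
    exact h0 x hx
  set V := (volume L).toReal with hV
  have hV0 : 0 ≤ V := ENNReal.toReal_nonneg
  obtain ⟨M₁, hM₁⟩ : ∃ M₁ : ℝ, ∀ x ∈ L, x k ≤ M₁ := by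
    obtain ⟨M₁, hM₁⟩ := (hL.image (continuous_apply k)).bddAbove
    exact ⟨M₁, fun x hx => hM₁ ⟨x, hx, rfl⟩⟩
  have hwM : w ≤ M₁ := hzw ▸ hM₁ z hz
  have hM0 : 0 ≤ M₁ := hw.le.trans hwM
  have hMx : ∀ᵐ x ∂μ, x k ≤ M₁ := by
    filter_upwards [ae_restrict_mem hL.measurableSet] with x hx
    exact hM₁ x hx
  set F : ℝ → ℝ := fun t => μ.real {x : Fin n → ℝ | t ≤ x k} with hF
  have e2 : ∫ x in L, x k ^ 2 = ∫ t in (0 : ℝ)..M₁, 2 * (t * F t) := by
    have := layer μ hf h0' hMx hM0 (g := fun t => 2 * t) (by fun_prop)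
      (fun t ht => by positivity)
    have e3 : ∀ x : Fin n → ℝ, ∫ t in (0 : ℝ)..x k, 2 * t = x k ^ 2 := by
      intro x
      rw [intervalIntegral.integral_const_mul, integral_id]
      ring
    simp only [e3] at this
    rw [this]
    exact intervalIntegral.integral_congr fun t _ => by ring
  have hFint : IntervalIntegrable F volume 0 M₁ := (antitone_meas_le μ _).intervalIntegrable
  have hFv : ∀ t, F t = (volume (L ∩ {x : Fin n → ℝ | t ≤ x k})).toReal := by
    intro t
    show (μ {x : Fin n → ℝ | t ≤ x k}).toReal = _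
    have h1 : MeasurableSet {x : Fin n → ℝ | t ≤ x k} := hf measurableSet_Ici
    rw [hμ, Measure.restrict_apply h1, inter_comm]
  have hlow : ∀ t, 0 ≤ t → cmp V w n t ≤ F t := by
    intro t ht
    rcases le_or_gt w t with h | h
    · rw [cmp_of_ge hw h hn0]
      exact measureReal_nonneg
    · rw [cmp_of_le hw h.le, hFv]
      set s : ℝ := 1 - t / w with hs
      have hs0 : 0 < s := by
        have : t / w < 1 := (div_lt_one hw).2 h
        linarith
      have hs1 : s ≤ 1 := by
        have : 0 ≤ t / w := by positivity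
        linarith
      have hsub : (fun x => (1 - s) • z + x) '' (s • L) ⊆ L ∩ {x : Fin n → ℝ | t ≤ x k} := by
        rintro _ ⟨_, ⟨x, hx, rfl⟩, rfl⟩
        refine ⟨hc hz hx (by linarith) hs0.le (by ring), ?_⟩
        show t ≤ (1 - s) * z k + s * x k
        have h1 : (1 - s) * z k = t := by
          rw [hzw, hs]
          field_simp
          ring
        have h2 : 0 ≤ s * x k := mul_nonneg hs0.le (h0 x hx)
        linarith
      have h3 : volume (s • L) ≤ volume (L ∩ {x : Fin n → ℝ | t ≤ x k}) := by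
        have h4 := measure_mono (μ := volume) hsub
        rwa [image_add_left, measure_preimage_add] at h4
      have h5 := ENNReal.toReal_mono
        (ne_top_of_le_ne_top hL.measure_lt_top.ne (measure_mono inter_subset_left)) h3
      rw [volume_smul_real hs0] at h5
      rw [mul_comm]
      exact h5
  have hcmp := integral_mul_cmp (V := V) hw hwM hn0
  have h1 : ∫ t in (0 : ℝ)..M₁, t * cmp V w n t ≤ ∫ t in (0 : ℝ)..M₁, t * F t := by
    refine intervalIntegral.integral_mono_on hM0 ?_ ?_ ?_
    · exact (continuous_id.mul (cmp_continuous V w n)).intervalIntegrable 0 M₁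
    · exact hFint.continuousOn_mul continuous_id.continuousOn
    · intro t ht
      exact mul_le_mul_of_nonneg_left (hlow t ht.1) ht.1
  rw [e2, intervalIntegral.integral_const_mul]
  rw [hcmp] at h1
  linarith

end Vale.Agent.P254.AU
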