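import Vale.Agent.P254.Unc.Num

/-!
P254, almost unconditional bodies: the numeric inequality.
-/

namespace Vale.Agent.P254.AU

open Vale.Agent.P254.Unc

/-- `((n+1)(n+2)/2)^q (n+1)^(2n+1) (80/79)^(n+2) < 8^n (n!)^2` if `40 q log (n+2) ≤ n`. -/
theorem au_num (n q : ℕ) (hn : 2 ≤ n) (h : 40 * (q : ℝ) * Real.log ((n : ℝ) + 2) ≤ n) :
    (((n : ℝ) + 1) * (n + 2) / 2) ^ q * (((n : ℝ) + 1) ^ (2 * n + 1) * (80 / 79) ^ (n + 2)) <
      8 ^ n * (n.factorial : ℝ) ^ 2 := by
  rcases Nat.eq_zero_or_pos q with rfl | hq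
  · rw [pow_zero, one_mul]
    exact pow_lt_factorial' hn
  have hq1 : (1 : ℝ) ≤ q := by exact_mod_cast hq
  have hn2 : (2 : ℝ) ≤ n := by exact_mod_cast hn
  have hn0 : (0 : ℝ) < n := by linarith
  have l2 := Real.log_two_gt_d9
  have hL : Real.log 2 + Real.log 2 ≤ Real.log ((n : ℝ) + 2) := by
    rw [← Real.log_mul (by norm_num) (by norm_num)]
    exact Real.log_le_log (by norm_num) (by linarith)
  have hn40 : (40 : ℝ) ≤ n := by nlinarith
  rw [← Real.log_lt_log_iff (by positivity) (by positivity)]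
  rw [Real.log_mul (by positivity) (by positivity), Real.log_mul (by positivity) (by positivity),
    Real.log_mul (by positivity) (by positivity), Real.log_pow, Real.log_pow, Real.log_pow,
    Real.log_pow, Real.log_pow]
  -- the loss
  have h1 : (q : ℝ) * Real.log (((n : ℝ) + 1) * (n + 2) / 2) ≤ n / 20 - Real.log 2 := by
    have h2 : Real.log (((n : ℝ) + 1) * (n + 2) / 2) ≤
        2 * Real.log ((n : ℝ) + 2) - Real.log 2 := by
      rw [Real.log_div (by positivity) (by norm_num), Real.log_mul (by positivity) (by positivity)]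
      have := Real.log_le_log (x := (n : ℝ) + 1) (y := (n : ℝ) + 2) (by positivity) (by linarith)
      linarith
    have h3 := mul_le_mul_of_nonneg_left h2 (by linarith : (0 : ℝ) ≤ q)
    have h4 : Real.log 2 ≤ q * Real.log 2 := le_mul_of_one_le_left (by linarith) hq1
    nlinarith
  -- Stirling
  have h5 := Stirling.le_log_factorial_stirling (n := n) (by omega)
  have h6 : Real.log ((n : ℝ) + 1) ≤ Real.log n + 1 / n := by
    have e : (n : ℝ) + 1 = n * (1 + 1 / n) := by field_simp
    have h7 := Real.log_le_sub_one_of_pos (x := 1 + 1 / (n : ℝ)) (by positivity)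
    rw [e, Real.log_mul hn0.ne' (by positivity)]
    linarith
  have h8 : (2 * (n : ℝ) + 1) * Real.log ((n : ℝ) + 1) ≤
      (2 * (n : ℝ) + 1) * Real.log n + (2 + 1 / n) := by
    have h9 := mul_le_mul_of_nonneg_left h6 (by positivity : (0 : ℝ) ≤ 2 * (n : ℝ) + 1)
    have e : (2 * (n : ℝ) + 1) * (Real.log n + 1 / n) =
        (2 * (n : ℝ) + 1) * Real.log n + (2 + 1 / n) := by
      field_simp
    rwa [e] at h9
  have h10 : Real.log (80 / 79 : ℝ) ≤ 1 / 79 := by
    have := Real.log_le_sub_one_of_pos (x := (80 / 79 : ℝ)) (by norm_num)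
    linarith
  have h11 : (1 : ℝ) ≤ Real.log Real.pi := by
    rw [Real.le_log_iff_exp_le Real.pi_pos]
    have := Real.exp_one_lt_d9
    have := Real.pi_gt_three
    linarith
  have h12 : Real.log (2 * Real.pi) = Real.log 2 + Real.log Real.pi :=
    Real.log_mul (by norm_num) Real.pi_pos.ne'
  have h13 : Real.log 8 = 3 * Real.log 2 := by
    rw [show (8 : ℝ) = 2 ^ 3 by norm_num, Real.log_pow]
    norm_num
  have h14 : 1 / (n : ℝ) ≤ 1 / 40 := one_div_le_one_div_of_le (by norm_num) hn40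
  have h15 : ((n : ℝ) + 2) * Real.log (80 / 79) ≤ ((n : ℝ) + 2) * (1 / 79) :=
    mul_le_mul_of_nonneg_left h10 (by positivity)
  rw [h13]
  push_cast
  rw [h12] at h5
  have h16 : (n : ℝ) * 0.6931471803 ≤ n * Real.log 2 :=
    mul_le_mul_of_nonneg_left l2.le hn0.le
  nlinarith

end Vale.Agent.P254.AU
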