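import Vale.Agent.P254.AU.Class
import Vale.Agent.P254.AU.Num
import Vale.Agent.P254.Unc.Stab2
import Vale.Agent.P254.Unc.Top254
import Vale.Agent.P254.Sym.Num

/-!
P254: the strong isotropic constant conjecture for the convex bodies nearly filling a body which
becomes unconditional after `q` Steiner symmetrizations.
-/

open MeasureTheory Set Matrix

namespace Vale.Agent.P254.AU

open Vale.Agent.P254.Unc

theorem near_of_alm {n q : ℕ} (hn : 1 ≤ n) {K U S : Set (Fin n → ℝ)}
    (hK : IsConvexBody K) (hS : IsSimplex S) (hU : Alm q U) (hKU : K ⊆ U)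
    (hvol : 79 / 80 * (volume U).toReal ≤ (volume K).toReal)
    (hq : 40 * (q : ℝ) * Real.log ((n : ℝ) + 2) ≤ n) :
    isoConst K ≤ isoConst S ∧ (isoConst K = isoConst S ↔ IsSimplex K) ∧
      (2 ≤ n → isoConst K < isoConst S) := by
  have hUb := hU.body
  have e1 : aff (1 : Matrix (Fin n) (Fin n) ℝ) 0 '' U = U := by
    have : aff (1 : Matrix (Fin n) (Fin n) ℝ) 0 = id := by
      funext x
      simp [aff]
    rw [this, image_id]
  rcases Nat.lt_or_ge n 2 with h2 | h2
  · -- `n = 1`
    obtain rfl : n = 1 := by omega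
    have hq0 : q = 0 := by
      by_contra h0
      have h1 : (1 : ℝ) ≤ q := by exact_mod_cast Nat.one_le_iff_ne_zero.mpr h0
      have h3 : (1 : ℝ) < Real.log (((1 : ℕ) : ℝ) + 2) := by
        rw [Real.lt_log_iff_exp_lt (by norm_num)]
        have := Real.exp_one_lt_d9
        norm_num
        linarith
      push_cast at hq h3
      nlinarith
    subst hq0
    have hb := hU.bound
    rw [pow_zero, one_mul] at hb
    obtain ⟨h1, h2⟩ := conj_of_near (A := 1) (b := 0) hn hK hS hUb (by simp)
      (by rw [e1]; exact hKU) (by rw [e1]; exact hvol) (fun h => pow_lt_factorial' h) hb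
    exact ⟨h1, h2, fun h => absurd h (by norm_num)⟩
  · have hlt : isoConst K < isoConst S := by
      refine near_of_bound (A := 1) (b := 0) (s := 80 / 79) hn hK hS hUb (by simp)
        (by rw [e1]; exact hKU) (by rw [e1]; linarith) hU.bound ?_
      have h1 := au_num n q h2 hq
      rw [← mul_assoc, Sym.simpC_lt_iff]
      refine lt_of_eq_of_lt ?_ h1
      ring
    obtain ⟨h1, h2⟩ := conj_of_lt hS hlt
    exact ⟨h1, h2, fun _ => hlt⟩

/-- The bodies nearly filling an affine image of a body which is symmetric with respect to the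
coordinate hyperplanes of the coordinates in `T`. -/
theorem near_of_sym {n : ℕ} (hn : 1 ≤ n) {K S : Set (Fin n → ℝ)}
    (hK : IsConvexBody K) (hS : IsSimplex S)
    (h : ∃ (A : Matrix (Fin n) (Fin n) ℝ) (b : Fin n → ℝ) (U : Set (Fin n → ℝ))
      (T : Finset (Fin n)), A.det ≠ 0 ∧ IsConvexBody U ∧
      (∀ x ∈ U, ∀ y : Fin n → ℝ, (∀ i ∈ T, |y i| = |x i|) → (∀ i, i ∉ T → y i = x i) → y ∈ U) ∧
      40 * ((n : ℝ) - T.card) * Real.log ((n : ℝ) + 2) ≤ n ∧
      K ⊆ (fun x => A *ᵥ x + b) '' U ∧
      79 / 80 * (volume ((fun x => A *ᵥ x + b) '' U)).toReal ≤ (volume K).toReal) :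
    isoConst K ≤ isoConst S ∧ (isoConst K = isoConst S ↔ IsSimplex K) ∧
      (2 ≤ n → isoConst K < isoConst S) := by
  obtain ⟨A, b, U, T, hA, hU, hsym, hT, hKU, hvol⟩ := h
  have h1 := Alm.aff A b hA (alm_of_sym hU T hsym)
  refine near_of_alm hn hK hS h1 hKU hvol ?_
  have h2 : T.card ≤ n := by simpa using T.card_le_univ
  rw [Nat.cast_sub h2]
  exact hT

end Vale.Agent.P254.AU
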