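import Vale.Agent.P254.Defs

/-!
P254, almost unconditional bodies: parallel supporting hyperplanes at the longest chord.
-/

open MeasureTheory Set

namespace Vale.Agent.P254.AU

variable {n : ℕ}

/-- If all chords of `K` in the direction `j` have length at most `w`, there is a linear function
with `j`-th coefficient `1` and oscillation at most `w` on `K`. -/
theorem exists_sep {K : Set (Fin n → ℝ)} (hK : IsConvexBody K) (j : Fin n) {w : ℝ}
    (hw : ∀ x u l, Function.update x j u ∈ K → Function.update x j l ∈ K → u - l ≤ w) :
    ∃ f : Fin n → ℝ, f j = 1 ∧ ∀ a ∈ K, ∀ b ∈ K, ∑ i, f i * a i ≤ ∑ i, f i * b i + w := by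
  obtain ⟨hc, hcp, hint⟩ := hK
  have hw0 : 0 ≤ w := by
    obtain ⟨z, hz⟩ := hint
    have hz' := interior_subset hz
    have := hw z (z j) (z j) (by simpa using hz') (by simpa using hz')
    linarith
  set e : Fin n → ℝ := Pi.single j 1 with he
  have hdisj : Disjoint (interior K) ((fun b => b + w • e) '' K) := by
    rw [Set.disjoint_left]
    rintro z hz ⟨b, hb, rfl⟩
    obtain ⟨r, hr, hball⟩ := Metric.isOpen_iff.1 isOpen_interior _ hz
    have h1 : b + w • e + (r / 2) • e ∈ K := by
      refine interior_subset (hball ?_)
      rw [Metric.mem_ball, dist_eq_norm, add_sub_cancel_left, norm_smul, he,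
        Pi.norm_single, norm_one, mul_one, Real.norm_eq_abs, abs_of_pos (by positivity)]
      linarith
    have h2 : Function.update b j (b j + w + r / 2) = b + w • e + (r / 2) • e := by
      funext i
      by_cases h : i = j
      · subst h; simp [he]
      · simp [he, h]
    have := hw b (b j + w + r / 2) (b j) (by rw [h2]; exact h1) (by simpa using hb)
    linarith
  have hconv2 : Convex ℝ ((fun b => b + w • e) '' K) := by
    have := hc.translate (w • e)
    have h0 : (fun b => b + w • e) = fun b => w • e + b := by
      funext b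
      exact add_comm _ _
    rw [h0]
    exact this
  obtain ⟨F, u, hF1, hF2⟩ := geometric_hahn_banach_open hc.interior isOpen_interior hconv2 hdisj
  have hF1' : ∀ a ∈ K, F a ≤ u := by
    intro a ha
    have h1 : a ∈ closure (interior K) := by
      rw [hc.closure_interior_eq_closure_of_nonempty_interior hint]
      exact subset_closure ha
    have h2 : closure (interior K) ⊆ {x | F x ≤ u} :=
      closure_minimal (fun x hx => (hF1 x hx).le) (isClosed_le F.continuous continuous_const)
    exact h2 h1
  have hF2' : ∀ b ∈ K, u ≤ F b + w * F e := by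
    intro b hb
    have := hF2 _ ⟨b, hb, rfl⟩
    simpa using this
  set c := F e with hcdef
  have hc0 : 0 < c := by
    by_contra h
    push Not at h
    obtain ⟨z, hz⟩ := hint
    have h1 := hF1 z hz
    have h2 := hF2' z (interior_subset hz)
    have h3 : w * c ≤ 0 := mul_nonpos_of_nonneg_of_nonpos hw0 h
    linarith
  have hsum : ∀ x : Fin n → ℝ, F x = ∑ i, F (Pi.single i 1) * x i := by
    intro x
    have h1 := LinearMap.pi_apply_eq_sum_univ (F : (Fin n → ℝ) →ₗ[ℝ] ℝ) x
    have h2 : F x = ∑ i, x i • F (fun k => if i = k then (1 : ℝ) else 0) := h1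
    rw [h2]
    refine Finset.sum_congr rfl fun i _ => ?_
    have : (fun k => if i = k then (1 : ℝ) else 0) = (Pi.single i 1 : Fin n → ℝ) := by
      funext k
      by_cases h : k = i
      · subst h; simp
      · rw [if_neg (fun h' => h h'.symm), Pi.single_eq_of_ne h]
    rw [this, smul_eq_mul, mul_comm]
  refine ⟨fun i => F (Pi.single i 1) / c, div_self hc0.ne', fun a ha b hb => ?_⟩
  have h1 : ∀ x : Fin n → ℝ, ∑ i, F (Pi.single i 1) / c * x i = F x / c := by
    intro x
    rw [hsum x, Finset.sum_div]
    exact Finset.sum_congr rfl fun i _ => by ring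
  rw [h1, h1, div_add' _ _ _ hc0.ne', div_le_div_iff_of_pos_right hc0]
  exact (hF1' a ha).trans (hF2' b hb)

end Vale.Agent.P254.AU
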