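import Vale.Agent.P254.Defs

/-!
P254, almost unconditional bodies: the Steiner symmetral of a convex body in a coordinate direction.
-/

open MeasureTheory Set

namespace Vale.Agent.P254.AU

variable {n : ℕ}

/-- The Steiner symmetral of `K` in the direction of the coordinate `j`. -/
def St (j : Fin n) (K : Set (Fin n → ℝ)) : Set (Fin n → ℝ) :=
  {x | ∃ u l : ℝ, Function.update x j u ∈ K ∧ Function.update x j l ∈ K ∧ 2 * |x j| ≤ u - l}

lemma update_comb (j : Fin n) (x z : Fin n → ℝ) (a b s t : ℝ) :
    Function.update (a • x + b • z) j (a * s + b * t) =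
      a • Function.update x j s + b • Function.update z j t := by
  funext i
  by_cases h : i = j
  · subst h
    simp
  · simp [Function.update_of_ne h]

lemma convex_St (j : Fin n) {K : Set (Fin n → ℝ)} (hK : Convex ℝ K) : Convex ℝ (St j K) := by
  rintro x ⟨u, l, hu, hl, hx⟩ z ⟨u', l', hu', hl', hz⟩ a b ha hb hab
  refine ⟨a * u + b * u', a * l + b * l', ?_, ?_, ?_⟩
  · rw [update_comb]
    exact hK hu hu' ha hb hab
  · rw [update_comb]
    exact hK hl hl' ha hb hab
  · have h1 : |(a • x + b • z) j| ≤ a * |x j| + b * |z j| := by
      simp only [Pi.add_apply, Pi.smul_apply, smul_eq_mul]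
      refine (abs_add_le _ _).trans ?_
      rw [abs_mul, abs_mul, abs_of_nonneg ha, abs_of_nonneg hb]
    nlinarith [mul_le_mul_of_nonneg_left hx ha, mul_le_mul_of_nonneg_left hz hb]

lemma isCompact_St (j : Fin n) {K : Set (Fin n → ℝ)} (hK : IsCompact K) : IsCompact (St j K) := by
  have hC : IsCompact ({p : ((Fin n → ℝ) × (Fin n → ℝ)) × ℝ |
      ∀ i, i ≠ j → p.1.1 i = p.1.2 i} ∩ ((K ×ˢ K) ×ˢ Icc (-1 : ℝ) 1)) := by
    refine IsCompact.inter_left ((hK.prod hK).prod isCompact_Icc) ?_
    have : {p : ((Fin n → ℝ) × (Fin n → ℝ)) × ℝ | ∀ i, i ≠ j → p.1.1 i = p.1.2 i} =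
        ⋂ i, ⋂ (_ : i ≠ j), {p | p.1.1 i = p.1.2 i} := by
      ext p
      simp
    rw [this]
    refine isClosed_iInter fun i => isClosed_iInter fun _ => isClosed_eq ?_ ?_
    · fun_prop
    · fun_prop
  have hcont : Continuous fun p : ((Fin n → ℝ) × (Fin n → ℝ)) × ℝ =>
      Function.update p.1.1 j (p.2 * (p.1.1 j - p.1.2 j) / 2) := by
    refine Continuous.update (by fun_prop) j (by fun_prop)
  convert hC.image hcont using 1
  ext x
  constructor
  · rintro ⟨u, l, hu, hl, hx⟩
    have hul : 0 ≤ u - l := le_trans (by positivity) hx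
    refine ⟨((Function.update x j u, Function.update x j l), 2 * x j / (u - l)),
      ⟨fun i hi => ?_, ⟨⟨hu, hl⟩, ?_⟩⟩, ?_⟩
    · simp [Function.update_of_ne hi]
    · show 2 * x j / (u - l) ∈ Icc (-1 : ℝ) 1
      rw [mem_Icc, ← abs_le]
      rcases eq_or_lt_of_le hul with h | h
      · rw [← h]; simp
      · rw [abs_div, abs_of_pos h, div_le_one h, abs_mul]
        simpa using hx
    · simp only [Function.update_self, Function.update_idem]
      rcases eq_or_lt_of_le hul with h | h
      · have h0 : x j = 0 := by
          rw [← h] at hx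
          have := abs_nonneg (x j)
          exact abs_eq_zero.1 (le_antisymm (by linarith) this)
        rw [← h, div_zero, zero_mul, zero_div]
        rw [← h0, Function.update_eq_self]
      · have : 2 * x j / (u - l) * (u - l) / 2 = x j := by
          field_simp
        rw [this, Function.update_eq_self]
  · rintro ⟨⟨⟨a, b⟩, θ⟩, ⟨hab, ⟨ha, hb⟩, hθ⟩, rfl⟩
    simp only at hab ha hb hθ ⊢
    have hb' : Function.update a j (b j) = b := by
      funext i
      by_cases h : i = j
      · subst h; simp
      · rw [Function.update_of_ne h]; exact hab i h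
    have hθ' : |θ| ≤ 1 := abs_le.2 hθ
    have h1 : 2 * |θ * (a j - b j) / 2| ≤ |a j - b j| := by
      rw [abs_div, abs_mul, abs_two]
      have := mul_le_mul_of_nonneg_right hθ' (abs_nonneg (a j - b j))
      linarith
    rcases le_total (b j) (a j) with h | h
    · refine ⟨a j, b j, ?_, ?_, ?_⟩
      · simpa using ha
      · rw [Function.update_idem, hb']; exact hb
      · rw [Function.update_self]
        rwa [abs_of_nonneg (sub_nonneg.2 h)] at h1
    · refine ⟨b j, a j, ?_, ?_, ?_⟩
      · rw [Function.update_idem, hb']; exact hb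
      · simpa using ha
      · rw [Function.update_self]
        rwa [abs_of_nonpos (sub_nonpos.2 h), neg_sub] at h1

/-- the symmetral is symmetric -/
lemma St_symm (j : Fin n) {K : Set (Fin n → ℝ)} {x : Fin n → ℝ} (hx : x ∈ St j K) {t : ℝ}
    (ht : |t| ≤ |x j|) : Function.update x j t ∈ St j K := by
  obtain ⟨u, l, hu, hl, h⟩ := hx
  refine ⟨u, l, by simpa using hu, by simpa using hl, ?_⟩
  rw [Function.update_self]
  linarith

/-- the symmetral keeps the symmetries in the other coordinates -/
lemma St_symm' (j : Fin n) {K : Set (Fin n → ℝ)} {i : Fin n} (hij : i ≠ j)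
    (hK : ∀ x ∈ K, Function.update x i (-x i) ∈ K) :
    ∀ x ∈ St j K, Function.update x i (-x i) ∈ St j K := by
  rintro x ⟨u, l, hu, hl, h⟩
  have e : ∀ t, Function.update (Function.update x i (-x i)) j t =
      Function.update (Function.update x j t) i (-(Function.update x j t) i) := by
    intro t
    rw [Function.update_of_ne hij, Function.update_comm hij]
  refine ⟨u, l, ?_, ?_, ?_⟩
  · rw [e]; exact hK _ hu
  · rw [e]; exact hK _ hl
  · rwa [Function.update_of_ne hij.symm]

/-- the fibres have the same length -/
lemma vol_fib (j : Fin n) {K : Set (Fin n → ℝ)} (hK : IsCompact K) (hc : Convex ℝ K)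
    (x : Fin n → ℝ) :
    volume {t : ℝ | Function.update x j t ∈ St j K} = volume {t : ℝ | Function.update x j t ∈ K} := by
  set F : Set ℝ := {t : ℝ | Function.update x j t ∈ K} with hF
  have hFc : Convex ℝ F := by
    intro s hs t ht a b ha hb hab
    have := hc hs ht ha hb hab
    show Function.update x j (a • s + b • t) ∈ K
    have e : Function.update x j (a • s + b • t) =
        a • Function.update x j s + b • Function.update x j t := by
      rw [← update_comb]
      congr 1
      rw [← add_smul, hab, one_smul]
    rw [e]
    exact this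
  have hcont : Continuous fun t : ℝ => Function.update x j t :=
    continuous_const.update j continuous_id
  have hFk : IsCompact F := by
    refine Metric.isCompact_of_isClosed_isBounded (hK.isClosed.preimage hcont) ?_
    obtain ⟨R, hR⟩ := hK.isBounded.exists_norm_le
    refine (Metric.isBounded_closedBall (x := (0 : ℝ)) (r := R)).subset ?_
    intro t ht
    rw [mem_closedBall_zero_iff]
    have h1 := norm_le_pi_norm (Function.update x j t) j
    rw [Function.update_self] at h1
    exact h1.trans (hR _ ht)
  rcases F.eq_empty_or_nonempty with h0 | hne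
  · have : {t : ℝ | Function.update x j t ∈ St j K} = ∅ := by
      rw [eq_empty_iff_forall_notMem]
      rintro t ⟨u, l, hu, _, _⟩
      rw [Function.update_idem] at hu
      have : u ∈ F := hu
      rw [h0] at this
      exact this
    rw [this, h0]
  · have hI : F = Icc (sInf F) (sSup F) :=
      eq_Icc_of_connected_compact ⟨hne, hFc.isPreconnected⟩ hFk
    have hle : sInf F ≤ sSup F := by
      obtain ⟨t, ht⟩ := hne
      rw [hI] at ht
      exact ht.1.trans ht.2
    have e : {t : ℝ | Function.update x j t ∈ St j K} =
        Icc (-((sSup F - sInf F) / 2)) ((sSup F - sInf F) / 2) := by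
      ext t
      rw [mem_Icc, ← abs_le]
      constructor
      · rintro ⟨u, l, hu, hl, h⟩
        rw [Function.update_idem] at hu hl
        rw [Function.update_self] at h
        have hu' : u ∈ F := hu
        have hl' : l ∈ F := hl
        rw [hI] at hu' hl'
        linarith [hu'.2, hl'.1]
      · intro h
        refine ⟨sSup F, sInf F, ?_, ?_, ?_⟩
        · rw [Function.update_idem]
          have : sSup F ∈ F := hFk.sSup_mem hne
          exact this
        · rw [Function.update_idem]
          have : sInf F ∈ F := hFk.sInf_mem hne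
          exact this
        · rw [Function.update_self]; linarith
    rw [e, hI, Real.volume_Icc, Real.volume_Icc, ← hI]
    congr 1
    ring

end Vale.Agent.P254.AU
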