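import Vale.Agent.P254.AU.Sep
import Vale.Agent.P254.AU.Fub
import Vale.Agent.P254.AU.Mom
import Vale.Agent.P254.AU.Alg
import Vale.Agent.P254.Unc.Stab
import Vale.Agent.P254.Unc.FinBody

/-!
P254, almost unconditional bodies: one Steiner symmetrization changes `det Cov` by a factor of at
most `(n + 1)(n + 2) / 2`.
-/

open MeasureTheory Set Matrix

namespace Vale.Agent.P254.AU

open Vale.Agent.P254.Unc

variable {n : ℕ}

/-- the shear `x_j ↦ ∑ f_i x_i` -/
noncomputable def shear (j : Fin n) (f : Fin n → ℝ) : Matrix (Fin n) (Fin n) ℝ :=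
  updateRow 1 j f

lemma det_shear (j : Fin n) {f : Fin n → ℝ} (hf : f j = 1) : (shear j f).det = 1 := by
  have h : (shear j f)ᵀ = updateCol 1 j f := by
    rw [shear, ← updateCol_transpose, transpose_one]
  rw [← det_transpose, h, ← cramer_apply, cramer_one]
  simpa using hf

lemma shear_self (j : Fin n) (f x : Fin n → ℝ) : aff (shear j f) 0 x j = ∑ i, f i * x i := by
  rw [aff_apply]
  simp [shear]

lemma shear_ne (j : Fin n) (f x : Fin n → ℝ) {i : Fin n} (h : i ≠ j) :
    aff (shear j f) 0 x i = x i := by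
  rw [aff_apply]
  simp [shear, updateRow_ne h, Matrix.one_apply]

/-- entries of the covariance matrix off the row `j` are not changed by the shear -/
lemma cov_shear {K : Set (Fin n → ℝ)} (hK : IsConvexBody K) (j : Fin n) {f : Fin n → ℝ}
    (hf : f j = 1) {i k : Fin n} (hi : i ≠ j) (hk : k ≠ j) :
    covMatrix (aff (shear j f) 0 '' K) i k = covMatrix K i k := by
  rw [cov_aff_image (by rw [det_shear j hf]; exact one_ne_zero) 0 hK.2.1 (volume_pos_of_body hK).ne']
  have h1 : ∀ {i : Fin n}, i ≠ j → shear j f i = (1 : Matrix (Fin n) (Fin n) ℝ) i := by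
    intro i hi
    exact updateRow_ne hi
  rw [Matrix.mul_apply]
  simp_rw [Matrix.mul_apply, Matrix.transpose_apply, h1 hi, h1 hk]
  simp [Matrix.one_apply]

lemma det_cov_shear {K : Set (Fin n → ℝ)} (hK : IsConvexBody K) (j : Fin n) {f : Fin n → ℝ}
    (hf : f j = 1) : (covMatrix (aff (shear j f) 0 '' K)).det = (covMatrix K).det := by
  rw [cov_aff_image (by rw [det_shear j hf]; exact one_ne_zero) 0 hK.2.1 (volume_pos_of_body hK).ne',
    det_mul, det_mul, det_transpose, det_shear j hf, one_mul, mul_one]

/-- Popoviciu's inequality -/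
lemma cov_le_of_osc {K : Set (Fin n → ℝ)} (hK : IsConvexBody K) (j : Fin n) {w : ℝ}
    (h : ∀ a ∈ K, ∀ b ∈ K, a j ≤ b j + w) : covMatrix K j j ≤ w ^ 2 / 4 := by
  have hV := volume_pos_of_body hK
  obtain ⟨z, hz⟩ : K.Nonempty := hK.2.2.mono interior_subset
  obtain ⟨b, hb, hmin⟩ := hK.2.1.exists_isMinOn ⟨z, hz⟩ (continuous_apply j).continuousOn
  have hrange : ∀ x ∈ K, b j ≤ x j ∧ x j ≤ b j + w := fun x hx => ⟨hmin hx, h x hx b hb⟩
  have h1 := cov_shift hK.2.1 hV.ne' (fun _ => b j + w / 2) j j
  have h2 : ∫ x in K, (x j - (b j + w / 2)) * (x j - (b j + w / 2)) ≤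
      ∫ _ in K, w ^ 2 / 4 := by
    refine setIntegral_mono_on (intOn hK.2.1 (by fun_prop)) (intOn hK.2.1 (by fun_prop))
      hK.2.1.measurableSet fun x hx => ?_
    obtain ⟨h3, h4⟩ := hrange x hx
    nlinarith
  rw [setIntegral_const, smul_eq_mul, Measure.real] at h2
  have h5 : (volume K).toReal⁻¹ * (∫ x in K, (x j - (b j + w / 2)) * (x j - (b j + w / 2))) ≤
      w ^ 2 / 4 := by
    rw [inv_mul_le_iff₀ hV]
    exact h2
  rw [h1] at h5
  nlinarith [sq_nonneg (centroid K j - (b j + w / 2))]

lemma isConvexBody_St {K : Set (Fin n → ℝ)} (hK : IsConvexBody K) (j : Fin n) :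
    IsConvexBody (St j K) ∧ (volume (St j K)).toReal = (volume K).toReal := by
  have hv := vol_eq_of_fib hK.2.1 (isCompact_St j hK.2.1) j (vol_fib j hK.2.1 hK.1)
  have hcv := convex_St j hK.1
  have hcp := isCompact_St j hK.2.1
  refine ⟨⟨hcv, hcp, ?_⟩, hv⟩
  have hV := volume_pos_of_body hK
  by_contra hne
  rw [not_nonempty_iff_eq_empty] at hne
  have h8 := hcv.addHaar_frontier (volume : Measure (Fin n → ℝ))
  rw [hcp.isClosed.frontier_eq, hne, sdiff_empty] at h8
  rw [← hv, h8] at hV
  simp at hV

/-- **Steiner symmetrization step.** -/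
theorem det_cov_le_St {K : Set (Fin n → ℝ)} (hK : IsConvexBody K) (j : Fin n) :
    (covMatrix K).det ≤ (((n : ℝ) + 1) * (n + 2) / 2) * (covMatrix (St j K)).det := by
  obtain ⟨hS, hvol⟩ := isConvexBody_St hK j
  have hV := volume_pos_of_body hK
  have hVS := volume_pos_of_body hS
  -- the longest chord
  have hC : IsCompact ({p : (Fin n → ℝ) × (Fin n → ℝ) |
      ∀ i, i ≠ j → p.1 i = p.2 i} ∩ (K ×ˢ K)) := by
    refine IsCompact.inter_left (hK.2.1.prod hK.2.1) ?_
    have : {p : (Fin n → ℝ) × (Fin n → ℝ) | ∀ i, i ≠ j → p.1 i = p.2 i} =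
        ⋂ i, ⋂ (_ : i ≠ j), {p | p.1 i = p.2 i} := by
      ext p
      simp
    rw [this]
    refine isClosed_iInter fun i => isClosed_iInter fun _ => isClosed_eq ?_ ?_
    · fun_prop
    · fun_prop
  obtain ⟨z, hz⟩ : K.Nonempty := hK.2.2.mono interior_subset
  obtain ⟨⟨p, q⟩, ⟨hpq, hp, hq⟩, hmax⟩ := hC.exists_isMaxOn ⟨(z, z), fun _ _ => rfl, hz, hz⟩
    (f := fun p : (Fin n → ℝ) × (Fin n → ℝ) => p.1 j - p.2 j) (by fun_prop)
  simp only at hpq hp hq
  set w := p j - q j with hw
  have hwmax : ∀ x u l, Function.update x j u ∈ K → Function.update x j l ∈ K → u - l ≤ w := by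
    intro x u l hu hl
    have := hmax (a := (Function.update x j u, Function.update x j l))
      ⟨fun i hi => by simp [Function.update_of_ne hi], hu, hl⟩
    simpa using this
  have hq' : Function.update p j (q j) = q := by
    funext i
    by_cases h : i = j
    · subst h; simp
    · rw [Function.update_of_ne h]; exact hpq i h
  -- a point of the symmetral
  set z' := Function.update p j (w / 2) with hz'
  have hw0' : 0 ≤ w := by
    have := hwmax z (z j) (z j) (by simpa using hz) (by simpa using hz)
    linarith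
  have hz'mem : z' ∈ St j K := by
    refine ⟨p j, q j, ?_, ?_, ?_⟩
    · rw [hz', Function.update_idem, Function.update_eq_self]; exact hp
    · rw [hz', Function.update_idem, hq']; exact hq
    · rw [hz', Function.update_self, abs_of_nonneg (by positivity)]; linarith
  have hw0 : 0 < w := by
    rcases eq_or_lt_of_le hw0' with h | h
    · exfalso
      have hsub : St j K ⊆ {x | x j = 0} := by
        rintro x ⟨u, l, hu, hl, hx⟩
        have h1 := hwmax x u l hu hl
        have h2 : |x j| ≤ 0 := by linarith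
        exact abs_eq_zero.1 (le_antisymm h2 (abs_nonneg _))
      have hnull : volume {x : Fin n → ℝ | x j = 0} = 0 := by
        rw [volume_pi]
        exact Measure.pi_hyperplane _ _ _
      have := measure_mono_null hsub hnull
      rw [this] at hVS
      simp at hVS
    · exact h
  -- second moment of the symmetral
  have hrefl : FB.refl j ⁻¹' (St j K) = St j K := by
    have h1 : ∀ x ∈ St j K, FB.refl j x ∈ St j K := by
      intro x hx
      have h2 := St_symm j hx (t := -x j) (by rw [abs_neg])
      convert h2 using 1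
      funext i
      by_cases h : i = j
      · subst h; rw [FB.refl_self, Function.update_self]
      · rw [FB.refl_ne h, Function.update_of_ne h]
    ext x
    constructor
    · intro hx
      have := h1 _ hx
      rwa [FB.refl_refl] at this
    · exact h1 x
  set L : Set (Fin n → ℝ) := St j K ∩ {x | 0 ≤ x j} with hL
  have hLc : Convex ℝ L := by
    refine hS.1.inter ?_
    intro x hx y hy a b ha hb _
    have h1 : 0 ≤ x j := hx
    have h2 : 0 ≤ y j := hy
    show 0 ≤ a * x j + b * y j
    positivity
  have hLk : IsCompact L :=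
    hS.2.1.inter_right (isClosed_le continuous_const (continuous_apply j))
  have hsq := sq_lower hLc hLk j (fun x hx => hx.2) (z := z')
    ⟨hz'mem, by show 0 ≤ z' j; rw [hz', Function.update_self]; positivity⟩ (w := w / 2)
    (by positivity) (by rw [hz', Function.update_self])
  have hhalf : ∫ x in St j K, x j ^ 2 = 2 * ∫ x in L, x j ^ 2 :=
    FB.half j hrefl (intOn hS.2.1 (by fun_prop)) (fun x => by rw [FB.refl_self, neg_sq])
  have hvolL : (volume (St j K)).toReal = 2 * (volume L).toReal := by
    have h := FB.half j hrefl (f := fun _ => (1 : ℝ)) (intOn hS.2.1 continuous_const)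
      (fun _ => rfl)
    rw [setIntegral_const, setIntegral_const] at h
    simpa [Measure.real] using h
  have hodd : ∀ g : (Fin n → ℝ) → ℝ, (∀ x, g (FB.refl j x) = -g x) →
      ∫ x in St j K, g x = 0 := by
    intro g hg
    have h := FB.refl_int j (St j K) g
    rw [hrefl] at h
    simp_rw [hg] at h
    rw [integral_neg] at h
    linarith
  have hcj : centroid (St j K) j = 0 := by
    rw [centroid, hodd (fun x => x j) (FB.refl_self j), mul_zero]
  have hjj : covMatrix (St j K) j j = (volume (St j K)).toReal⁻¹ * ∫ x in St j K, x j ^ 2 := by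
    rw [covMatrix]
    simp only [hcj, sub_zero, pow_two]
  have hlow : w ^ 2 / (2 * (((n : ℝ) + 1) * (n + 2))) ≤ covMatrix (St j K) j j := by
    rw [hjj, hhalf, hvolL, le_inv_mul_iff₀ (by linarith)]
    have e : 2 * (volume L).toReal * (w ^ 2 / (2 * (((n : ℝ) + 1) * (n + 2)))) =
        2 * (2 * ((volume L).toReal * (w / 2) ^ 2 / (((n : ℝ) + 1) * (n + 2)))) := by
      field_simp
    rw [e]
    linarith
  -- the shear
  obtain ⟨f, hfj, hf⟩ := exists_sep hK j hwmax
  have hA : (shear j f).det ≠ 0 := by rw [det_shear j hfj]; exact one_ne_zero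
  have hB := isConvexBody_aff_image hA 0 hK
  rw [← det_cov_shear hK j hfj]
  refine det_compare (covMatrix_posDef hB) j ?_ ?_ ?_
  · intro i k hi hk
    rw [cov_shear hK j hfj hi hk]
    have hint := fun (g : (Fin n → ℝ) → ℝ) (hg : Continuous g)
      (hgj : ∀ x t, g (Function.update x j t) = g x) =>
      int_eq_of_fib hK.2.1 hS.2.1 j (vol_fib j hK.2.1 hK.1) hg hgj
    have hci : ∀ i, i ≠ j → centroid (St j K) i = centroid K i := by
      intro i hi
      rw [centroid, centroid, hvol, hint (fun x => x i) (by fun_prop)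
        (fun x t => Function.update_of_ne hi _ _)]
    rw [covMatrix, covMatrix, hvol, hci i hi, hci k hk]
    congr 1
    refine (hint (fun x => (x i - centroid K i) * (x k - centroid K k)) (by fun_prop) ?_).symm
    intro x t
    simp only [Function.update_of_ne hi, Function.update_of_ne hk]
  · intro k hk
    rw [covMatrix]
    simp only [hcj, sub_zero]
    rw [hodd (fun x => x j * (x k - centroid (St j K) k)), mul_zero]
    intro x
    rw [FB.refl_self, FB.refl_ne hk]
    ring
  · have h1 : covMatrix (aff (shear j f) 0 '' K) j j ≤ w ^ 2 / 4 := by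
      refine cov_le_of_osc hB j ?_
      rintro _ ⟨a, ha, rfl⟩ _ ⟨b, hb, rfl⟩
      rw [shear_self, shear_self]
      exact hf a ha b hb
    have h2 : w ^ 2 / 4 = (((n : ℝ) + 1) * (n + 2) / 2) *
        (w ^ 2 / (2 * (((n : ℝ) + 1) * (n + 2)))) := by
      field_simp
      ring
    rw [h2] at h1
    exact h1.trans (mul_le_mul_of_nonneg_left hlow (by positivity))

end Vale.Agent.P254.AU
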